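import Vale.Agent.P046.Defs

/-!
Superharmonic majorants and stopping for the triangle removal process.
-/

namespace Vale.Agent.P046

open Finset

variable {V : Type} [Fintype V] [DecidableEq V]

theorem sdiff_pairs_ssubset {A : Finset (Finset V)} {t : Finset V} (h : t ∈ tri A) :
    A \ pairs t ⊂ A :=
  Finset.ssubset_iff_subset_ne.2 ⟨sdiff_subset, fun he => by
    have := card_sdiff_pairs_lt h; rw [he] at this; omega⟩

/-- The expected value of `g` at the final triangle-free edge set of the process from `A`. -/
noncomputable def procVal (g : Finset (Finset V) → ℝ) (A : Finset (Finset V)) : ℝ :=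
  if tri A = ∅ then g A
  else (∑ t ∈ (tri A).attach, procVal g (A \ pairs t.1)) / (tri A).card
termination_by A.card
decreasing_by exact card_sdiff_pairs_lt t.2

/-- The probability that the process from `A` leaves more than `L` edges. -/
noncomputable def probGT (L : ℝ) (A : Finset (Finset V)) : ℝ :=
  procVal (fun B => if L < B.card then 1 else 0) A

theorem procVal_of_empty (g : Finset (Finset V) → ℝ) {A : Finset (Finset V)} (h : tri A = ∅) :
    procVal g A = g A := by
  rw [procVal, if_pos h]

theorem procVal_of_ne (g : Finset (Finset V) → ℝ) {A : Finset (Finset V)} (h : tri A ≠ ∅) :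
    procVal g A = (∑ t ∈ tri A, procVal g (A \ pairs t)) / (tri A).card := by
  rw [procVal, if_neg h, sum_attach (tri A) (fun t => procVal g (A \ pairs t))]

theorem expLeave_eq_procVal (A : Finset (Finset V)) :
    expLeave A = procVal (fun B => (B.card : ℝ)) A := by
  induction A using Finset.strongInduction with
  | H A ih =>
    rw [expLeave, procExp, procVal]
    by_cases h : tri A = ∅
    · simp [h]
    · simp only [if_neg h, ite_self, zero_add]
      congr 1
      exact sum_congr rfl fun t _ => ih _ (sdiff_pairs_ssubset t.2)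

/-- A superharmonic majorant of `g` on the subsets of `A` dominates the expected value. -/
theorem procVal_le (g W : Finset (Finset V) → ℝ) :
    ∀ A : Finset (Finset V),
      (∀ B ⊆ A, tri B = ∅ → g B ≤ W B) →
      (∀ B ⊆ A, tri B ≠ ∅ → ∑ t ∈ tri B, W (B \ pairs t) ≤ (tri B).card * W B) →
      procVal g A ≤ W A := by
  intro A
  induction A using Finset.strongInduction with
  | H A ih =>
    intro hterm hstep
    by_cases h : tri A = ∅
    · rw [procVal_of_empty g h]; exact hterm A subset_rfl h
    · have hT : (0 : ℝ) < ((tri A).card : ℝ) := by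
        exact_mod_cast card_pos.2 (nonempty_iff_ne_empty.2 h)
      rw [procVal_of_ne g h, div_le_iff₀ hT, mul_comm (W A)]
      refine le_trans (sum_le_sum fun t ht => ?_) (hstep A subset_rfl h)
      have hs := sdiff_pairs_ssubset ht
      exact ih _ hs (fun B hB => hterm B (hB.trans hs.subset))
        (fun B hB => hstep B (hB.trans hs.subset))

theorem procVal_sum {ι : Type} (s : Finset ι) (g : ι → Finset (Finset V) → ℝ) :
    ∀ A : Finset (Finset V),
      procVal (fun B => ∑ i ∈ s, g i B) A = ∑ i ∈ s, procVal (g i) A := by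
  intro A
  induction A using Finset.strongInduction with
  | H A ih =>
    by_cases h : tri A = ∅
    · rw [procVal_of_empty _ h]
      exact sum_congr rfl fun i _ => (procVal_of_empty _ h).symm
    · rw [procVal_of_ne _ h, sum_congr rfl fun t ht => ih _ (sdiff_pairs_ssubset ht),
        sum_comm, sum_div]
      exact sum_congr rfl fun i _ => (procVal_of_ne _ h).symm

theorem procVal_congr {g g' : Finset (Finset V) → ℝ} :
    ∀ A : Finset (Finset V), (∀ B ⊆ A, g B = g' B) → procVal g A = procVal g' A := by
  intro A
  induction A using Finset.strongInduction with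
  | H A ih =>
    intro hg
    by_cases h : tri A = ∅
    · rw [procVal_of_empty _ h, procVal_of_empty _ h]; exact hg A subset_rfl
    · rw [procVal_of_ne _ h, procVal_of_ne _ h]
      congr 1
      refine sum_congr rfl fun t ht => ?_
      have hs := sdiff_pairs_ssubset ht
      exact ih _ hs fun B hB => hg B (hB.trans hs.subset)

theorem probGT_nonneg (L : ℝ) : ∀ A : Finset (Finset V), 0 ≤ probGT L A := by
  intro A
  induction A using Finset.strongInduction with
  | H A ih =>
    by_cases h : tri A = ∅
    · rw [probGT, procVal_of_empty _ h]; split_ifs <;> norm_num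
    · rw [probGT, procVal_of_ne _ h]
      exact div_nonneg (sum_nonneg fun t ht => ih _ (sdiff_pairs_ssubset ht)) (Nat.cast_nonneg _)

theorem probGT_le_one (L : ℝ) (A : Finset (Finset V)) : probGT L A ≤ 1 :=
  procVal_le _ (fun _ => 1) A (fun B _ _ => by split_ifs <;> norm_num)
    (fun B _ _ => by simp)

/-- The expected leave is the sum of the tail probabilities. -/
theorem expLeave_eq_sum (A : Finset (Finset V)) :
    expLeave A = ∑ k ∈ range A.card, probGT (k : ℝ) A := by
  rw [expLeave_eq_procVal]
  refine Eq.trans (procVal_congr A fun B hB => ?_) (procVal_sum (range A.card) _ A)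
  simp only [Nat.cast_lt, ← sum_filter, sum_const, nsmul_eq_mul, mul_one, Nat.cast_inj]
  have : (range A.card).filter (fun k => k < B.card) = range B.card := by
    ext k
    have := card_le_card hB
    simp only [mem_filter, mem_range]
    omega
  rw [this, card_range]

/-- The budget of drift left when the edge count falls from `E` to `L`. -/
noncomputable def budget (C L : ℝ) (E : ℕ) : ℝ := C / 3 * Real.log ((E : ℝ) / L) + C / L

theorem log_step {E : ℕ} {L : ℝ} (hL : 0 < L) (hE : 3 < E) :
    3 / (E : ℝ) ≤ Real.log ((E : ℝ) / L) - Real.log (((E - 3 : ℕ) : ℝ) / L) := by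
  have h3 : (0 : ℝ) < ((E - 3 : ℕ) : ℝ) := by exact_mod_cast (by omega : 0 < E - 3)
  have hE' : (0 : ℝ) < (E : ℝ) := by exact_mod_cast (by omega : 0 < E)
  rw [Real.log_div hE'.ne' hL.ne', Real.log_div h3.ne' hL.ne']
  have h := Real.one_sub_inv_le_log_of_pos (div_pos hE' h3)
  rw [Real.log_div hE'.ne' h3.ne', inv_div] at h
  have e : 1 - ((E - 3 : ℕ) : ℝ) / (E : ℝ) = 3 / (E : ℝ) := by
    rw [Nat.cast_sub (by omega)]; push_cast; field_simp; ring
  linarith

theorem budget_step {C L : ℝ} (hC : 0 ≤ C) (hL : 0 < L) {E : ℕ} (hE : 3 < E) :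
    budget C L (E - 3) + C / E ≤ budget C L E := by
  have h := mul_le_mul_of_nonneg_left (log_step hL hE) (show (0 : ℝ) ≤ C / 3 by positivity)
  have e : C / 3 * (3 / (E : ℝ)) = C / E := by field_simp
  unfold budget
  linarith

theorem card_sdiff_pairs {A : Finset (Finset V)} {t : Finset V} (h : t ∈ tri A) :
    (A \ pairs t).card = A.card - 3 := by
  rw [card_sdiff_of_subset (tri_sub h)]; simp [pairs, tri_card h]

/-- Markov's inequality with stopping: as long as `Z` stays below `θ` the process cannot stop
and `Z` drifts up by at most `C / E`, so leaving more than `L` edges needs `Z` to reach `θ`. -/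
theorem tail_le (A₀ : Finset (Finset V)) (Z : Finset (Finset V) → ℝ) {C L θ : ℝ}
    (hC : 0 ≤ C) (hL : 0 < L) (hθ : 0 < θ) (hA₀ : L < A₀.card)
    (hZ : ∀ A ⊆ A₀, 0 ≤ Z A)
    (hstuck : ∀ A ⊆ A₀, L < A.card → tri A = ∅ → θ ≤ Z A)
    (hdrift : ∀ A ⊆ A₀, L < A.card → tri A ≠ ∅ → Z A < θ →
      ∑ t ∈ tri A, Z (A \ pairs t) ≤ (tri A).card * (Z A + C / A.card)) :
    probGT L A₀ ≤ (Z A₀ + budget C L A₀.card) / θ := by
  let W : Finset (Finset V) → ℝ := fun A =>
    if (A.card : ℝ) ≤ L then 0 else if θ ≤ Z A then 1 else
      min 1 ((Z A + budget C L A.card) / θ)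
  have hWle : ∀ A, W A ≤ 1 := fun A => by
    simp only [W]; split_ifs <;> norm_num
  have hbud : ∀ E : ℕ, L < E → C / E ≤ budget C L E := fun E hE => by
    have h1 : (0 : ℝ) ≤ Real.log ((E : ℝ) / L) :=
      Real.log_nonneg (by rw [le_div_iff₀ hL]; linarith)
    have h2 : C / (E : ℝ) ≤ C / L := by gcongr
    have h3 : 0 ≤ C / 3 * Real.log ((E : ℝ) / L) := mul_nonneg (by positivity) h1
    unfold budget
    linarith
  have key : procVal (fun B => if L < (B.card : ℝ) then 1 else 0) A₀ ≤ W A₀ := by
    refine procVal_le _ W A₀ (fun A hA h => ?_) (fun A hA hne => ?_)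
    · simp only [W]
      rcases lt_or_ge L (A.card : ℝ) with hl | hl
      · rw [if_pos hl, if_neg (not_le.2 hl), if_pos (hstuck A hA hl h)]
      · rw [if_neg (not_lt.2 hl), if_pos hl]
    · rcases le_or_gt (A.card : ℝ) L with hl | hl
      · have e : W A = 0 := if_pos hl
        rw [e, mul_zero]
        refine le_of_eq (sum_eq_zero fun t ht => if_pos (le_trans ?_ hl))
        exact_mod_cast card_le_card sdiff_subset
      · rcases le_or_gt θ (Z A) with hz | hz
        · have e : W A = 1 := by simp only [W]; rw [if_neg (not_le.2 hl), if_pos hz]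
          rw [e, mul_one]
          exact le_trans (sum_le_sum fun t _ => hWle _) (by simp)
        · have e : W A = min 1 ((Z A + budget C L A.card) / θ) := by
            simp only [W]; rw [if_neg (not_le.2 hl), if_neg (not_le.2 hz)]
          rw [e, mul_min_of_nonneg _ _ (Nat.cast_nonneg _), mul_one]
          refine le_min (le_trans (sum_le_sum fun t _ => hWle _) (by simp)) ?_
          have h1 : ∀ t ∈ tri A, W (A \ pairs t)
              ≤ (Z (A \ pairs t) + (budget C L A.card - C / A.card)) / θ := by
            intro t ht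
            have hsub : A \ pairs t ⊆ A₀ := sdiff_subset.trans hA
            have hz' := hZ _ hsub
            have hb := hbud A.card hl
            simp only [W]
            split_ifs with hl' hz''
            · exact div_nonneg (by linarith) hθ.le
            · rw [le_div_iff₀ hθ, one_mul]; linarith
            · refine (min_le_right _ _).trans ?_
              have hl3 : L < (((A.card - 3 : ℕ)) : ℝ) := by
                rw [← card_sdiff_pairs ht]; exact not_le.1 hl'
              have hE : 3 < A.card := by
                have : (0 : ℝ) < ((A.card - 3 : ℕ) : ℝ) := hL.trans hl3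
                have : 0 < A.card - 3 := by exact_mod_cast this
                omega
              have := budget_step hC hL hE
              rw [card_sdiff_pairs ht]
              gcongr
              linarith
          refine (sum_le_sum h1).trans ?_
          rw [← sum_div, sum_add_distrib, sum_const, nsmul_eq_mul, mul_div_assoc']
          gcongr
          have := hdrift A hA hl hne hz
          linarith
  refine key.trans ?_
  simp only [W]
  rw [if_neg (not_le.2 hA₀)]
  split_ifs with hz
  · rw [le_div_iff₀ hθ, one_mul]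
    have := hbud A₀.card hA₀
    have : 0 ≤ C / (A₀.card : ℝ) := by positivity
    linarith
  · exact min_le_right _ _

theorem sum_inv_sq_le {m : ℕ} (hm : 1 ≤ m) :
    ∀ N : ℕ, m ≤ N → ∑ k ∈ Ico (m + 1) (N + 1), (1 : ℝ) / (k : ℝ) ^ 2 ≤ 1 / m - 1 / N := by
  intro N hN
  induction N, hN using Nat.le_induction with
  | base => simp
  | succ N hN ih =>
    rw [sum_Ico_succ_top (by omega)]
    have hN' : (1 : ℝ) ≤ N := by exact_mod_cast hm.trans hN
    have h : (1 : ℝ) / ((N + 1 : ℕ) : ℝ) ^ 2 ≤ 1 / N - 1 / ((N + 1 : ℕ) : ℝ) := by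
      push_cast
      rw [div_sub_div _ _ (by linarith) (by linarith), div_le_div_iff₀ (by positivity) (by positivity)]
      nlinarith
    linarith

/-- A quadratically decaying tail above `L₀` gives a bound for the expected leave. -/
theorem expLeave_le_of_tail (A : Finset (Finset V)) {B L₀ : ℝ} (hB : 0 ≤ B) (hL₀ : 0 < L₀)
    (htail : ∀ k : ℕ, L₀ ≤ k → k < A.card → probGT (k : ℝ) A ≤ B / (k : ℝ) ^ 2) :
    expLeave A ≤ L₀ + 2 + B / L₀ := by
  set m := ⌈L₀⌉₊ with hm
  have hm1 : 1 ≤ m := Nat.one_le_iff_ne_zero.2 (Nat.ceil_pos.2 hL₀).ne'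
  have hmL : L₀ ≤ (m : ℝ) := Nat.le_ceil _
  have hmU : (m : ℝ) < L₀ + 1 := Nat.ceil_lt_add_one hL₀.le
  rw [expLeave_eq_sum, ← sum_filter_add_sum_filter_not (range A.card) (fun k => k ≤ m)]
  have h1 : ∑ k ∈ (range A.card).filter (fun k => k ≤ m), probGT (k : ℝ) A ≤ (m : ℝ) + 1 := by
    refine (sum_le_sum fun k _ => probGT_le_one _ A).trans ?_
    rw [sum_const, nsmul_eq_mul, mul_one]
    have hsub : (range A.card).filter (fun k => k ≤ m) ⊆ range (m + 1) := fun k hk => by
      simp only [mem_filter, mem_range] at hk ⊢; omega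
    have h := card_le_card hsub
    rw [card_range] at h
    exact_mod_cast h
  have h2 : ∑ k ∈ (range A.card).filter (fun k => ¬ k ≤ m), probGT (k : ℝ) A
      ≤ B * (1 / (m : ℝ)) := by
    calc _ ≤ ∑ k ∈ (range A.card).filter (fun k => ¬ k ≤ m), B * (1 / (k : ℝ) ^ 2) := by
          refine sum_le_sum fun k hk => ?_
          simp only [mem_filter, mem_range, not_le] at hk
          refine (htail k (hmL.trans (by exact_mod_cast hk.2.le)) hk.1).trans ?_
          rw [mul_one_div]
      _ ≤ B * ∑ k ∈ Ico (m + 1) (max A.card m + 1), (1 : ℝ) / (k : ℝ) ^ 2 := by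
          rw [← mul_sum]
          gcongr
          intro k hk
          simp only [mem_filter, mem_range, not_le, mem_Ico] at hk ⊢
          omega
      _ ≤ B * (1 / (m : ℝ)) := by
          gcongr
          refine (sum_inv_sq_le hm1 _ (le_max_right _ _)).trans ?_
          exact sub_le_self _ (by positivity)
  have h3 : B * (1 / (m : ℝ)) ≤ B / L₀ := by
    rw [mul_one_div]; gcongr
  linarith

end Vale.Agent.P046
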