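import Vale.Agent.P046.Drift
import Vale.Agent.P046.Stopping

/-!
The process does not collapse into isolated triangles when the codegrees are bounded.
-/

namespace Vale.Agent.P046

open Finset

variable {V : Type} [Fintype V] [DecidableEq V]

/-- The isolated triangles: each edge is in no other triangle. -/
def isoSet (A : Finset (Finset V)) : Finset (Finset V) :=
  (tri A).filter fun t => ∀ e ∈ pairs t, codeg A e = 1

/-- The edges in no triangle. -/
def zeroSet (A : Finset (Finset V)) : Finset (Finset V) := A.filter fun e => codeg A e = 0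

/-- The triangles with an edge in no other triangle and another edge in some other triangle. -/
def lowSet (A : Finset (Finset V)) : Finset (Finset V) :=
  (tri A).filter fun s => (∃ e ∈ pairs s, codeg A e = 1) ∧ ∃ f ∈ pairs s, 2 ≤ codeg A f

/-- The triangles which become isolated when `t` is removed. -/
def created (A : Finset (Finset V)) (t : Finset V) : Finset (Finset V) :=
  isoSet (A \ pairs t) \ isoSet A

/-- The edges which lose a triangle when `t` is removed, apart from those of `t`. -/
def touched (A : Finset (Finset V)) (t : Finset V) : Finset (Finset V) :=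
  ((tri A).filter fun s => ¬ Disjoint (pairs s) (pairs t)).biUnion pairs \ pairs t

theorem codeg_mono {A B : Finset (Finset V)} (h : B ⊆ A) (e : Finset V) :
    codeg B e ≤ codeg A e := by
  refine card_le_card fun s hs => ?_
  obtain ⟨h1, h2⟩ := mem_filter.1 hs
  exact mem_filter.2 ⟨mem_filter.2 ⟨(mem_filter.1 h1).1, (tri_sub h1).trans h⟩, h2⟩

theorem tri_sdiff_mem {A : Finset (Finset V)} {s t : Finset V} (h : s ∈ tri (A \ pairs t)) :
    s ∈ tri A ∧ Disjoint (pairs s) (pairs t) :=
  mem_filter.1 (tri_sdiff A t ▸ h)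

theorem lost_card (A : Finset (Finset V)) (t e : Finset V) :
    codeg (A \ pairs t) e + (lost A t e).card = codeg A e := by
  obtain ⟨h1, h2⟩ := codeg_sdiff A t e
  omega

/-- An edge that misses `t` loses no triangle when `t` is removed. -/
theorem lost_eq_empty {A : Finset (Finset V)} {t e : Finset V} (he : e.card = 2)
    (hd : Disjoint e t) : lost A t e = ∅ := by
  rw [lost, filter_eq_empty_iff]
  rintro r hr ⟨her, hnd⟩
  obtain ⟨f, hfr, hft⟩ := not_disjoint_iff.1 hnd
  obtain ⟨hfr', hf2⟩ := mem_powersetCard.1 hfr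
  have hft' := (mem_powersetCard.1 hft).1
  have her' := (mem_powersetCard.1 her).1
  have h1 : f ⊆ r \ e := fun x hx =>
    mem_sdiff.2 ⟨hfr' hx, fun hxe => disjoint_left.1 hd hxe (hft' hx)⟩
  have h2 := card_le_card h1
  rw [card_sdiff_of_subset her', tri_card hr, he, hf2] at h2
  omega

/-- A triangle that `t` leaves isolated had an edge in no other triangle. -/
theorem created_sub (A : Finset (Finset V)) (t : Finset V) : created A t ⊆ lowSet A := by
  intro s hs
  obtain ⟨hs1, hs2⟩ := mem_sdiff.1 hs
  obtain ⟨hst, hs'⟩ := mem_filter.1 hs1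
  obtain ⟨hsA, hdis⟩ := tri_sdiff_mem hst
  refine mem_filter.2 ⟨hsA, ?_, ?_⟩
  · have h1 : (s ∩ t).card ≤ 1 := by
      by_contra hc
      obtain ⟨g, hg, hg2⟩ := exists_subset_card_eq (s := s ∩ t) (n := 2) (by omega)
      exact disjoint_left.1 hdis
        (mem_powersetCard.2 ⟨hg.trans inter_subset_left, hg2⟩)
        (mem_powersetCard.2 ⟨hg.trans inter_subset_right, hg2⟩)
    have h3 := tri_card hsA
    have h4 : 2 ≤ (s \ t).card := by
      have := card_sdiff_add_card_inter s t
      omega
    obtain ⟨e, he, he2⟩ := exists_subset_card_eq h4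
    have hep : e ∈ pairs s := mem_powersetCard.2 ⟨he.trans sdiff_subset, he2⟩
    have hl := lost_eq_empty (A := A) he2
      (disjoint_left.2 fun x hx => (mem_sdiff.1 (he hx)).2)
    have := lost_card A t e
    rw [hl, card_empty, hs' e hep] at this
    exact ⟨e, hep, by omega⟩
  · by_contra hc
    push Not at hc
    refine hs2 (mem_filter.2 ⟨hsA, fun e he => ?_⟩)
    have := codeg_pos hsA he
    have := hc e he
    omega

/-- At most `2M` removals can isolate a given triangle. -/
theorem sum_created_le {A : Finset (Finset V)} {M : ℕ} (hM : ∀ e, codeg A e ≤ M) :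
    ∑ t ∈ tri A, (created A t).card ≤ 2 * M * (lowSet A).card := by
  have e1 : ∑ t ∈ tri A, (created A t).card
      = ∑ s ∈ lowSet A, ((tri A).filter fun t => s ∈ created A t).card := by
    simp only [card_eq_sum_ones, sum_filter]
    rw [sum_comm]
    refine sum_congr rfl fun t _ => ?_
    rw [← sum_filter, filter_mem_eq_inter, inter_eq_right.2 (created_sub A t)]
  rw [e1, mul_comm, ← smul_eq_mul]
  refine sum_le_card_nsmul _ _ _ fun s hs => ?_
  obtain ⟨hsA, -, f, hfs, hf⟩ := mem_filter.1 hs
  obtain ⟨r, hr, hrs⟩ := exists_mem_ne (s := (tri A).filter fun r => f ∈ pairs r)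
    (show 1 < _ by unfold codeg at hf; omega) s
  obtain ⟨hrA, hfr⟩ := mem_filter.1 hr
  refine le_trans (card_le_card
    (t := ((pairs r).erase f).biUnion fun g => (tri A).filter fun t => g ∈ pairs t)
    fun t ht => ?_) ?_
  · obtain ⟨htA, htc⟩ := mem_filter.1 ht
    obtain ⟨hst, hs'⟩ := mem_filter.1 (mem_sdiff.1 htc).1
    have hfs' := hs' f hfs
    have hl : r ∈ lost A t f := by
      by_contra hr'
      have hdr : Disjoint (pairs r) (pairs t) := by
        by_contra hc
        exact hr' (mem_filter.2 ⟨hrA, hfr, hc⟩)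
      have h2 : ({s, r} : Finset (Finset V))
          ⊆ (tri (A \ pairs t)).filter fun x => f ∈ pairs x := by
        intro x hx
        simp only [mem_insert, mem_singleton] at hx
        rcases hx with rfl | rfl
        · exact mem_filter.2 ⟨hst, hfs⟩
        · exact mem_filter.2 ⟨tri_sdiff A t ▸ mem_filter.2 ⟨hrA, hdr⟩, hfr⟩
      have h3 := card_le_card h2
      rw [card_pair hrs.symm, ← codeg, hfs'] at h3
      omega
    obtain ⟨g, hgr, hgt⟩ := not_disjoint_iff.1 (mem_filter.1 hl).2.2
    refine mem_biUnion.2 ⟨g, mem_erase.2 ⟨fun h => ?_, hgr⟩, mem_filter.2 ⟨htA, hgt⟩⟩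
    exact disjoint_left.1 (tri_sdiff_mem hst).2 hfs (h ▸ hgt)
  · refine (card_biUnion_le_card_mul _ _ M fun g _ => hM g).trans ?_
    rw [card_erase_of_mem hfr, pairs_card hrA]

/-- The number of edges in no triangle grows by at least the number of `lowSet` triangles. -/
theorem sum_zero_ge (A : Finset (Finset V)) :
    (tri A).card * (zeroSet A).card + (lowSet A).card
      ≤ ∑ t ∈ tri A, (zeroSet (A \ pairs t)).card := by
  let S : Finset V → Finset (Finset V) := fun t =>
    (lowSet A).filter fun s => ∃ e ∈ pairs s,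
      codeg A e = 1 ∧ e ∉ pairs t ∧ ¬ Disjoint (pairs s) (pairs t)
  have h1 : ∀ t ∈ tri A, (zeroSet A).card + (S t).card ≤ (zeroSet (A \ pairs t)).card := by
    intro t ht
    let N := (A \ pairs t).filter fun e => codeg A e = 1 ∧ codeg (A \ pairs t) e = 0
    have hsub : zeroSet A ∪ N ⊆ zeroSet (A \ pairs t) := by
      intro e he
      rcases mem_union.1 he with he | he
      · obtain ⟨he1, he2⟩ := mem_filter.1 he
        refine mem_filter.2 ⟨mem_sdiff.2 ⟨he1, fun hc => ?_⟩, ?_⟩
        · have := codeg_pos ht hc; omega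
        · have := codeg_mono (sdiff_subset : A \ pairs t ⊆ A) e; omega
      · exact mem_filter.2 ⟨(mem_filter.1 he).1, (mem_filter.1 he).2.2⟩
    have hdis : Disjoint (zeroSet A) N := disjoint_left.2 fun e he he' => by
      have := (mem_filter.1 he).2
      have := (mem_filter.1 he').2.1
      omega
    have hS : (S t).card ≤ N.card := by
      refine le_trans (card_le_card
        (t := N.biUnion fun e => (tri A).filter fun s => e ∈ pairs s) fun s hs => ?_) ?_
      · obtain ⟨hs1, e, he, he1, het, hnd⟩ := mem_filter.1 hs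
        have hsA := (mem_filter.1 hs1).1
        refine mem_biUnion.2 ⟨e, mem_filter.2 ⟨mem_sdiff.2 ⟨tri_sub hsA he, het⟩, he1, ?_⟩,
          mem_filter.2 ⟨hsA, he⟩⟩
        have := lost_card A t e
        have : 1 ≤ (lost A t e).card := card_pos.2 ⟨s, mem_filter.2 ⟨hsA, he, hnd⟩⟩
        omega
      · refine (card_biUnion_le_card_mul _ _ 1 fun e he => ?_).trans (by rw [mul_one])
        exact le_of_eq ((codeg.eq_def A e).symm.trans (mem_filter.1 he).2.1)
    have := card_le_card hsub
    rw [card_union_of_disjoint hdis] at this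
    omega
  refine le_trans ?_ (sum_le_sum h1)
  rw [sum_add_distrib, sum_const, smul_eq_mul]
  gcongr
  have e1 : ∑ t ∈ tri A, (S t).card
      = ∑ s ∈ lowSet A, ((tri A).filter fun t => s ∈ S t).card := by
    simp only [card_eq_sum_ones, sum_filter]
    rw [sum_comm]
    refine sum_congr rfl fun t _ => ?_
    rw [← sum_filter, filter_mem_eq_inter, inter_eq_right.2 (filter_subset _ _)]
  rw [e1, card_eq_sum_ones]
  refine sum_le_sum fun s hs => card_pos.2 ?_
  obtain ⟨hsA, ⟨e, he, he1⟩, f, hf, hf2⟩ := mem_filter.1 hs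
  obtain ⟨t, ht, hts⟩ := exists_mem_ne (s := (tri A).filter fun r => f ∈ pairs r)
    (show 1 < _ by unfold codeg at hf2; omega) s
  obtain ⟨htA, hft⟩ := mem_filter.1 ht
  refine ⟨t, mem_filter.2 ⟨htA, mem_filter.2 ⟨hs, e, he, he1, fun het => ?_,
    not_disjoint_iff.2 ⟨f, hf, hft⟩⟩⟩⟩
  have hef : e ≠ f := fun h => by rw [h] at he1; omega
  exact hts (eq_of_two_pairs htA hsA hef het hft he hf)

theorem isoSet_step (A : Finset (Finset V)) (t : Finset V) :
    (isoSet (A \ pairs t)).card + (if t ∈ isoSet A then 1 else 0)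
      ≤ (isoSet A).card + (created A t).card := by
  have h1 : isoSet (A \ pairs t) ⊆ (isoSet A).erase t ∪ created A t := by
    intro s hs
    by_cases hsA : s ∈ isoSet A
    · refine mem_union_left _ (mem_erase.2 ⟨fun h => ?_, hsA⟩)
      subst h
      obtain ⟨hsT, hd⟩ := tri_sdiff_mem (mem_filter.1 hs).1
      have := pairs_card hsT
      rw [disjoint_self_iff_empty] at hd
      rw [hd, card_empty] at this
      omega
    · exact mem_union_right _ (mem_sdiff.2 ⟨hs, hsA⟩)
  have h2 := (card_le_card h1).trans (card_union_le _ _)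
  split_ifs with ht
  · rw [card_erase_of_mem ht] at h2
    have : 1 ≤ (isoSet A).card := card_pos.2 ⟨t, ht⟩
    omega
  · rw [erase_eq_of_notMem ht] at h2
    omega

/-- The potential, with isolated triangles deducted and triangle-free edges rewarded. -/
noncomputable def netPot (M : ℕ) (A : Finset (Finset V)) : ℝ :=
  total A + 12 / 5 * (M : ℝ) * (zeroSet A).card - 6 / 5 * (isoSet A).card

theorem netPot_drift {A : Finset (Finset V)} {M : ℕ} (hM : ∀ e, codeg A e ≤ M) :
    (tri A).card * netPot M A ≤ ∑ t ∈ tri A, netPot M (A \ pairs t) := by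
  have h1 : (∑ t ∈ tri A, ((isoSet (A \ pairs t)).card : ℝ)) + (isoSet A).card
      ≤ (tri A).card * ((isoSet A).card : ℝ) + 2 * (M : ℝ) * (lowSet A).card := by
    have h := sum_le_sum fun t (_ : t ∈ tri A) => isoSet_step A t
    have hc := sum_created_le hM
    have hfil : (tri A).filter (fun t => t ∈ isoSet A) = isoSet A := by
      rw [filter_mem_eq_inter]; exact inter_eq_right.2 (filter_subset _ _)
    have e : ∑ t ∈ tri A, (if t ∈ isoSet A then 1 else 0) = (isoSet A).card := by
      rw [sum_boole, hfil]; simp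
    rw [sum_add_distrib, e, sum_add_distrib, sum_const, smul_eq_mul] at h
    have : ∑ t ∈ tri A, (isoSet (A \ pairs t)).card + (isoSet A).card
        ≤ (tri A).card * (isoSet A).card + 2 * M * (lowSet A).card := by omega
    exact_mod_cast this
  have h2 : ((tri A).card : ℝ) * (zeroSet A).card + (lowSet A).card
      ≤ ∑ t ∈ tri A, ((zeroSet (A \ pairs t)).card : ℝ) := by exact_mod_cast sum_zero_ge A
  have h3 : 0 ≤ 6 / 5 * ((isoSet A).card : ℝ)
      + ((∑ t ∈ tri A, total (A \ pairs t)) - (tri A).card * total A) := by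
    have h := drift A
    rw [sum_add_distrib, sum_sub_distrib, sum_const, nsmul_eq_mul, ← sum_filter, sum_const,
      nsmul_eq_mul] at h
    rw [isoSet]
    linarith
  have h4 := mul_le_mul_of_nonneg_left h2 (show (0 : ℝ) ≤ 12 / 5 * M by positivity)
  unfold netPot
  rw [sum_sub_distrib, sum_add_distrib, ← mul_sum, ← mul_sum]
  linarith

theorem netPot_terminal {A : Finset (Finset V)} (M : ℕ) (h : tri A = ∅) :
    netPot M A = (1 + 12 / 5 * (M : ℝ)) * A.card := by
  have h0 : ∀ e, codeg A e = 0 := fun e => by simp [codeg, h]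
  simp [netPot, total, isoSet, zeroSet, h, h0, pot]
  ring

theorem pot_le_one (c : ℕ) : 0 ≤ pot c ∧ pot c ≤ 1 := by
  cases c with
  | zero => norm_num [pot]
  | succ j =>
    have h1 : q j ≤ 1 := by
      induction j with
      | zero => norm_num [q]
      | succ j ih => exact (q_le_succ j).trans ih
    have := q_pos j
    rw [pot]; constructor <;> linarith

theorem touched_card {A : Finset (Finset V)} {t : Finset V} {M : ℕ} (ht : t ∈ tri A)
    (hM : ∀ e, codeg A e ≤ M) : (touched A t).card ≤ 9 * M := by
  refine (card_le_card sdiff_subset).trans ?_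
  have h1 : ((tri A).filter fun s => ¬ Disjoint (pairs s) (pairs t)).card ≤ 3 * M := by
    refine le_trans (card_le_card
      (t := (pairs t).biUnion fun f => (tri A).filter fun s => f ∈ pairs s) fun s hs => ?_) ?_
    · obtain ⟨hsA, hnd⟩ := mem_filter.1 hs
      obtain ⟨f, hfs, hft⟩ := not_disjoint_iff.1 hnd
      exact mem_biUnion.2 ⟨f, hft, mem_filter.2 ⟨hsA, hfs⟩⟩
    · exact (card_biUnion_le_card_mul _ _ M fun f _ => hM f).trans (by rw [pairs_card ht])
  refine (card_biUnion_le_card_mul _ _ 3 fun s hs => (pairs_card (mem_filter.1 hs).1).le).trans ?_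
  omega

theorem codeg_untouched {A : Finset (Finset V)} {t e : Finset V} (he : e ∉ pairs t)
    (h : e ∉ touched A t) : codeg (A \ pairs t) e = codeg A e := by
  have hl : lost A t e = ∅ := by
    rw [lost, filter_eq_empty_iff]
    rintro s hs ⟨hes, hnd⟩
    exact h (mem_sdiff.2 ⟨mem_biUnion.2 ⟨s, mem_filter.2 ⟨hs, hnd⟩, hes⟩, he⟩)
  have := lost_card A t e
  rw [hl, card_empty] at this
  omega

theorem netPot_increment {A : Finset (Finset V)} {t : Finset V} {M : ℕ} (ht : t ∈ tri A)
    (hM : ∀ e, codeg A e ≤ M) :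
    |netPot M (A \ pairs t) - netPot M A| ≤ 50 * (M : ℝ) ^ 2 := by
  set A' := A \ pairs t with hA'
  have hsubA : A' ⊆ A := sdiff_subset
  have hT := touched_card ht hM
  have hTr : ((touched A t).card : ℝ) ≤ 9 * M := by exact_mod_cast hT
  have hM1 : (1 : ℝ) ≤ M := by
    obtain ⟨e, he⟩ := card_pos.1 (show 0 < (pairs t).card by rw [pairs_card ht]; norm_num)
    exact_mod_cast (codeg_pos ht he).trans (hM e)
  have h1 : |total A' - total A| ≤ 3 + 9 * (M : ℝ) := by
    have e1 : total A = total A' + ((∑ e ∈ A', (pot (codeg A e) - pot (codeg A' e)))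
        + ∑ e ∈ pairs t, pot (codeg A e)) := by
      rw [total, total, ← sum_sdiff (tri_sub ht), ← hA', sum_sub_distrib]; ring
    have e2 : ∑ e ∈ A', (pot (codeg A e) - pot (codeg A' e))
        = ∑ e ∈ A'.filter (fun e => e ∈ touched A t), (pot (codeg A e) - pot (codeg A' e)) := by
      refine (sum_filter_of_ne fun e he hne => ?_).symm
      by_contra hc
      refine hne ?_
      rw [hA', codeg_untouched (mem_sdiff.1 he).2 hc, sub_self]
    have hb : |∑ e ∈ A'.filter (fun e => e ∈ touched A t), (pot (codeg A e) - pot (codeg A' e))|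
        ≤ 9 * (M : ℝ) := by
      refine (abs_sum_le_sum_abs _ _).trans ((sum_le_card_nsmul _ _ 1 fun e _ => ?_).trans ?_)
      · obtain ⟨a1, a2⟩ := pot_le_one (codeg A e)
        obtain ⟨b1, b2⟩ := pot_le_one (codeg A' e)
        exact abs_le.2 ⟨by linarith, by linarith⟩
      · rw [nsmul_eq_mul, mul_one]
        refine le_trans ?_ hTr
        exact_mod_cast card_le_card fun e he => (mem_filter.1 he).2
    have hp0 : 0 ≤ ∑ e ∈ pairs t, pot (codeg A e) := sum_nonneg fun e _ => (pot_le_one _).1
    have hp1 : ∑ e ∈ pairs t, pot (codeg A e) ≤ 3 := by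
      refine (sum_le_card_nsmul _ _ 1 fun e _ => (pot_le_one _).2).trans ?_
      rw [pairs_card ht]; norm_num
    rw [abs_le] at hb ⊢
    rw [e1, e2]
    constructor <;> linarith
  have h2 : |((zeroSet A').card : ℝ) - (zeroSet A).card| ≤ 9 * (M : ℝ) := by
    have ha : zeroSet A ⊆ zeroSet A' := by
      intro e he
      obtain ⟨he1, he2⟩ := mem_filter.1 he
      refine mem_filter.2 ⟨mem_sdiff.2 ⟨he1, fun hc => ?_⟩, ?_⟩
      · have := codeg_pos ht hc; omega
      · have := codeg_mono hsubA e; omega
    have hb : zeroSet A' ⊆ zeroSet A ∪ touched A t := by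
      intro e he
      obtain ⟨he1, he2⟩ := mem_filter.1 he
      by_cases hc : e ∈ touched A t
      · exact mem_union_right _ hc
      · rw [hA', codeg_untouched (mem_sdiff.1 he1).2 hc] at he2
        exact mem_union_left _ (mem_filter.2 ⟨(mem_sdiff.1 he1).1, he2⟩)
    have hb' : ((zeroSet A').card : ℝ) ≤ (zeroSet A).card + (touched A t).card := by
      exact_mod_cast (card_le_card hb).trans (card_union_le _ _)
    have ha' : ((zeroSet A).card : ℝ) ≤ (zeroSet A').card := by exact_mod_cast card_le_card ha
    rw [abs_le]; constructor <;> linarith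
  have h3 : |((isoSet A').card : ℝ) - (isoSet A).card| ≤ 1 + 9 * (M : ℝ) := by
    have hc : (created A t).card ≤ (touched A t).card := by
      have hex : ∀ s ∈ created A t, ∃ e ∈ pairs s, e ∈ touched A t := by
        intro s hs
        obtain ⟨hs1, hs2⟩ := mem_sdiff.1 hs
        obtain ⟨hst, hs'⟩ := mem_filter.1 hs1
        obtain ⟨hsA, hdis⟩ := tri_sdiff_mem hst
        by_contra hc
        push Not at hc
        refine hs2 (mem_filter.2 ⟨hsA, fun e he => ?_⟩)
        rw [← codeg_untouched (disjoint_left.1 hdis he) (hc e he)]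
        exact hs' e he
      choose g hg1 hg2 using hex
      refine card_le_card_of_injOn (fun s => if h : s ∈ created A t then g s h else ∅)
        (fun s hs => by simp [mem_coe.1 hs, hg2]) fun s hs s' hs' he => ?_
      simp only [mem_coe] at hs hs'
      simp only [dif_pos hs, dif_pos hs'] at he
      obtain ⟨hst, hs1⟩ := mem_filter.1 (mem_sdiff.1 hs).1
      have hst' := (mem_filter.1 (mem_sdiff.1 hs').1).1
      exact (card_le_one.1 (hs1 _ (hg1 s hs)).le) s (mem_filter.2 ⟨hst, hg1 s hs⟩) s'
        (mem_filter.2 ⟨hst', he ▸ hg1 s' hs'⟩)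
    have ha : isoSet A ⊆ insert t (isoSet A') := by
      intro s hs
      by_cases hst : s = t
      · exact hst ▸ mem_insert_self _ _
      refine mem_insert_of_mem ?_
      obtain ⟨hsA, hs'⟩ := mem_filter.1 hs
      have hd : Disjoint (pairs s) (pairs t) := disjoint_left.2 fun e hes het => hst <| by
        exact card_le_one.1 (hs' e hes).le s (mem_filter.2 ⟨hsA, hes⟩) t
          (mem_filter.2 ⟨ht, het⟩)
      have hs2 : s ∈ tri A' := tri_sdiff A t ▸ mem_filter.2 ⟨hsA, hd⟩
      refine mem_filter.2 ⟨hs2, fun e he => ?_⟩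
      have := codeg_mono hsubA e
      have := hs' e he
      have := codeg_pos hs2 he
      omega
    have hs : ((isoSet A').card : ℝ) ≤ (isoSet A).card + (touched A t).card := by
      have := isoSet_step A t
      rw [← hA'] at this
      exact_mod_cast (by omega : (isoSet A').card ≤ (isoSet A).card + (touched A t).card)
    have ha' : ((isoSet A).card : ℝ) ≤ (isoSet A').card + 1 := by
      exact_mod_cast (card_le_card ha).trans (card_insert_le _ _)
    rw [abs_le]; constructor <;> linarith
  obtain ⟨a1, a2⟩ := abs_le.1 h1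
  obtain ⟨b1, b2⟩ := abs_le.1 h2
  obtain ⟨c1, c2⟩ := abs_le.1 h3
  have b1' := mul_le_mul_of_nonneg_left b1 (show (0 : ℝ) ≤ 12 / 5 * M by positivity)
  have b2' := mul_le_mul_of_nonneg_left b2 (show (0 : ℝ) ≤ 12 / 5 * M by positivity)
  have hsq : (M : ℝ) ≤ M ^ 2 := by nlinarith
  unfold netPot
  rw [abs_le]
  constructor <;> linarith

/-- The probability that the process from `A` leaves fewer than `L` edges. -/
noncomputable def probLT (L : ℝ) (A : Finset (Finset V)) : ℝ :=
  procVal (fun B => if (B.card : ℝ) < L then 1 else 0) A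

theorem sq_pos_part_sub (x d : ℝ) :
    max (x - d) 0 ^ 2 ≤ max x 0 ^ 2 - 2 * max x 0 * d + d ^ 2 := by
  rcases le_total 0 x with h | h
  · rw [max_eq_left h]
    rcases le_total 0 (x - d) with h' | h'
    · rw [max_eq_left h']; linarith [sub_sq x d]
    · rw [max_eq_right h']; nlinarith [sq_nonneg (x - d)]
  · rw [max_eq_right h]
    rcases le_total 0 (x - d) with h' | h'
    · rw [max_eq_left h']; nlinarith
    · rw [max_eq_right h']; nlinarith [sq_nonneg d]

/-- From bounded codegrees the final count is, with high probability, a `1 / M` fraction of the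
potential net of the isolated triangles. -/
theorem lower_tail {A : Finset (Finset V)} {M : ℕ} {a : ℝ} (hM : ∀ e, codeg A e ≤ M)
    (ha : 0 < a) (hA : 2 * a ≤ netPot M A) :
    probLT (a / (1 + 12 / 5 * (M : ℝ))) A ≤ 2500 * (M : ℝ) ^ 4 * A.card / a ^ 2 := by
  let W : Finset (Finset V) → ℝ := fun B =>
    (max (netPot M A - netPot M B) 0 ^ 2 + 2500 * (M : ℝ) ^ 4 * B.card) / a ^ 2
  refine le_trans (procVal_le _ W A (fun B _ h => ?_) (fun B hB _ => ?_)) (le_of_eq ?_)
  · simp only [W]
    split_ifs with hl
    · rw [lt_div_iff₀ (by positivity), mul_comm, ← netPot_terminal M h] at hl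
      rw [le_div_iff₀ (by positivity), one_mul]
      have h1 : a ≤ max (netPot M A - netPot M B) 0 := le_max_of_le_left (by linarith)
      have : 0 ≤ 2500 * (M : ℝ) ^ 4 * B.card := by positivity
      nlinarith
    · positivity
  · have hMB : ∀ e, codeg B e ≤ M := fun e => (codeg_mono hB e).trans (hM e)
    simp only [W]
    rw [← sum_div, mul_div_assoc']
    refine div_le_div_of_nonneg_right ?_ (sq_nonneg a)
    set x := netPot M A - netPot M B with hx
    have hpt : ∀ t ∈ tri B, max (netPot M A - netPot M (B \ pairs t)) 0 ^ 2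
        + 2500 * (M : ℝ) ^ 4 * ((B \ pairs t).card : ℝ)
        ≤ (max x 0 ^ 2 + 2500 * (M : ℝ) ^ 4 * B.card)
          - 2 * max x 0 * (netPot M (B \ pairs t) - netPot M B) := by
      intro t ht
      set d := netPot M (B \ pairs t) - netPot M B with hd
      have h1 := sq_pos_part_sub x d
      have h2 : d ^ 2 ≤ 2500 * (M : ℝ) ^ 4 := by
        have h := netPot_increment ht hMB
        rw [← hd] at h
        have h0 := abs_nonneg d
        rw [← sq_abs]; nlinarith [mul_self_le_mul_self h0 h]
      have h3 : ((B \ pairs t).card : ℝ) + 1 ≤ B.card := by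
        exact_mod_cast Nat.succ_le_of_lt (card_sdiff_pairs_lt ht)
      have h4 := mul_le_mul_of_nonneg_left h3 (show (0 : ℝ) ≤ 2500 * (M : ℝ) ^ 4 by positivity)
      rw [show netPot M A - netPot M (B \ pairs t) = x - d by rw [hx, hd]; ring]
      linarith
    refine (sum_le_sum hpt).trans ?_
    rw [sum_sub_distrib, sum_const, nsmul_eq_mul, ← mul_sum, sum_sub_distrib, sum_const,
      nsmul_eq_mul]
    have h5 := mul_nonneg (show 0 ≤ 2 * max x 0 by positivity) (sub_nonneg.2 (netPot_drift hMB))
    linarith
  · simp only [W, sub_self, max_self]; ring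

end Vale.Agent.P046
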