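import Mathlib

/-!
P046: the random triangle removal process on edge sets.
-/

namespace Vale.Agent.P046

open Finset

variable {V : Type} [Fintype V] [DecidableEq V]

/-- The three vertex pairs of a triangle. -/
def pairs (t : Finset V) : Finset (Finset V) := t.powersetCard 2

/-- The triangles of the edge set `A` (edges are two-element vertex sets). -/
def tri (A : Finset (Finset V)) : Finset (Finset V) :=
  (univ.powersetCard 3).filter fun t => pairs t ⊆ A

/-- The number of triangles of `A` through the pair `e`. -/
def codeg (A : Finset (Finset V)) (e : Finset V) : ℕ :=
  ((tri A).filter fun s => e ∈ pairs s).card

theorem tri_card {A : Finset (Finset V)} {t : Finset V} (h : t ∈ tri A) : t.card = 3 :=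
  (mem_powersetCard.1 (mem_filter.1 h).1).2

theorem tri_sub {A : Finset (Finset V)} {t : Finset V} (h : t ∈ tri A) : pairs t ⊆ A :=
  (mem_filter.1 h).2

theorem card_sdiff_pairs_lt {A : Finset (Finset V)} {t : Finset V} (h : t ∈ tri A) :
    (A \ pairs t).card < A.card := by
  have h1 := card_sdiff_add_card_eq_card (tri_sub h)
  have h2 : (pairs t).card = 3 := by simp [pairs, tri_card h]
  omega

/-- The random triangle removal process from `A`: at each step a uniform triangle `t` of the
current edge set is removed with its three edges. The value is `a` times the expected number of
edges of the final triangle-free graph plus `b` times the expected number of removed triangles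
that were isolated when removed (none of their edges was in another triangle). -/
noncomputable def procExp (a b : ℝ) (A : Finset (Finset V)) : ℝ :=
  if tri A = ∅ then a * A.card
  else (∑ t ∈ (tri A).attach,
    ((if ∀ e ∈ pairs t.1, codeg A e = 1 then b else 0) + procExp a b (A \ pairs t.1)))
      / (tri A).card
termination_by A.card
decreasing_by exact card_sdiff_pairs_lt t.2

/-- The expected number of edges of the final triangle-free graph. -/
noncomputable def expLeave (A : Finset (Finset V)) : ℝ := procExp 1 0 A

/-- The expected number of removed triangles that were isolated when removed. -/
noncomputable def expIsolated (A : Finset (Finset V)) : ℝ := procExp 0 1 A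

end Vale.Agent.P046
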