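import Vale.Agent.P046.Potential

/-!
The potential is a lower bound for the weighted final count.
-/

namespace Vale.Agent.P046

open Finset

variable {V : Type} [Fintype V] [DecidableEq V]

theorem pairs_card {A : Finset (Finset V)} {t : Finset V} (h : t ∈ tri A) : (pairs t).card = 3 := by
  simp [pairs, tri_card h]

theorem eq_of_two_pairs {A : Finset (Finset V)} {s t e f : Finset V} (hs : s ∈ tri A)
    (ht : t ∈ tri A) (hef : e ≠ f) (he : e ∈ pairs s) (hf : f ∈ pairs s) (he' : e ∈ pairs t)
    (hf' : f ∈ pairs t) : s = t := by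
  simp only [pairs, mem_powersetCard] at he hf he' hf'
  have h1 : e ∪ f ⊆ s := union_subset he.1 hf.1
  have h2 : e ∪ f ⊆ t := union_subset he'.1 hf'.1
  have h3 : 3 ≤ (e ∪ f).card := by
    by_contra hc
    have a1 : e = e ∪ f := eq_of_subset_of_card_le subset_union_left (by omega)
    have a2 : f = e ∪ f := eq_of_subset_of_card_le subset_union_right (by omega)
    exact hef (a1.trans a2.symm)
  have k1 := eq_of_subset_of_card_le h1 (by rw [tri_card hs]; exact h3)
  have k2 := eq_of_subset_of_card_le h2 (by rw [tri_card ht]; exact h3)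
  exact k1.symm.trans k2

theorem tri_sdiff (A : Finset (Finset V)) (t : Finset V) :
    tri (A \ pairs t) = (tri A).filter fun s => Disjoint (pairs s) (pairs t) := by
  ext s
  simp only [tri, mem_filter, subset_sdiff, and_assoc]

/-- The triangles through `e` destroyed by the removal of `t`. -/
def lost (A : Finset (Finset V)) (t e : Finset V) : Finset (Finset V) :=
  (tri A).filter fun s => e ∈ pairs s ∧ ¬ Disjoint (pairs s) (pairs t)

theorem codeg_sdiff (A : Finset (Finset V)) (t e : Finset V) :
    codeg (A \ pairs t) e = codeg A e - (lost A t e).card ∧ (lost A t e).card ≤ codeg A e := by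
  have h := card_filter_add_card_filter_not (s := (tri A).filter fun s => e ∈ pairs s)
    (p := fun s => Disjoint (pairs s) (pairs t))
  simp only [filter_filter] at h
  have e1 : codeg (A \ pairs t) e
      = ((tri A).filter fun s => e ∈ pairs s ∧ Disjoint (pairs s) (pairs t)).card := by
    rw [codeg, tri_sdiff, filter_filter]
    simp only [and_comm]
  simp only [lost, codeg] at h e1 ⊢
  omega

/-- The potential of an edge set. -/
noncomputable def total (A : Finset (Finset V)) : ℝ := ∑ e ∈ A, pot (codeg A e)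

theorem codeg_pos {A : Finset (Finset V)} {s e : Finset V} (hs : s ∈ tri A) (he : e ∈ pairs s) :
    1 ≤ codeg A e :=
  card_pos.2 ⟨s, mem_filter.2 ⟨hs, he⟩⟩

theorem step_lower {A : Finset (Finset V)} {t : Finset V} (ht : t ∈ tri A) :
    (∑ s ∈ tri A, ∑ e ∈ pairs s,
        if e ∉ pairs t ∧ ¬ Disjoint (pairs s) (pairs t) then gain (codeg A e) else 0)
      - ∑ e ∈ pairs t, pot (codeg A e) ≤ total (A \ pairs t) - total A := by
  unfold total
  rw [← sum_sdiff (f := fun e => pot (codeg A e)) (tri_sub ht)]
  have h1 : ∀ e, ((lost A t e).card : ℝ) * gain (codeg A e)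
      ≤ pot (codeg (A \ pairs t) e) - pot (codeg A e) := fun e => by
    obtain ⟨h, h'⟩ := codeg_sdiff A t e
    rw [h]; exact pot_sub _ _ h'
  have h2 : (∑ s ∈ tri A, ∑ e ∈ pairs s,
      if e ∉ pairs t ∧ ¬ Disjoint (pairs s) (pairs t) then gain (codeg A e) else 0)
      = ∑ e ∈ A \ pairs t, ((lost A t e).card : ℝ) * gain (codeg A e) := by
    simp only [← sum_filter]
    rw [sum_comm' (t' := A \ pairs t) (s' := fun e => lost A t e)]
    · exact sum_congr rfl fun e _ => by rw [sum_const, nsmul_eq_mul]
    · intro s e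
      simp only [mem_filter, lost, mem_sdiff]
      constructor
      · rintro ⟨hs, he, hn, hd⟩
        exact ⟨⟨hs, he, hd⟩, tri_sub hs he, hn⟩
      · rintro ⟨⟨hs, he, hd⟩, _, hn⟩
        exact ⟨hs, he, hn, hd⟩
  have h3 : (∑ e ∈ A \ pairs t, ((lost A t e).card : ℝ) * gain (codeg A e))
      ≤ ∑ e ∈ A \ pairs t, (pot (codeg (A \ pairs t) e) - pot (codeg A e)) :=
    sum_le_sum fun e _ => h1 e
  rw [sum_sub_distrib] at h3
  linarith

theorem partners_lower {A : Finset (Finset V)} {s e : Finset V} (hs : s ∈ tri A)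
    (he : e ∈ pairs s) :
    ∑ f ∈ (pairs s).erase e, ((codeg A f : ℝ) - 1)
      ≤ (((tri A).filter fun t => e ∉ pairs t ∧ ¬ Disjoint (pairs s) (pairs t)).card : ℝ) := by
  let S := fun f => (((tri A).filter fun t => f ∈ pairs t).erase s)
  have hS : ∀ f ∈ (pairs s).erase e, ((codeg A f : ℝ) - 1) = ((S f).card : ℝ) := by
    intro f hf
    have hf' := (mem_erase.1 hf).2
    simp only [S]
    rw [card_erase_of_mem (mem_filter.2 ⟨hs, hf'⟩), ← codeg,
      Nat.cast_sub (codeg_pos hs hf'), Nat.cast_one]
  rw [sum_congr rfl hS, ← Nat.cast_sum, Nat.cast_le, ← card_biUnion]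
  · refine card_le_card fun t ht => ?_
    simp only [S, mem_biUnion, mem_erase, mem_filter] at ht
    obtain ⟨f, ⟨hfe, hfs⟩, hts, htA, hft⟩ := ht
    refine mem_filter.2 ⟨htA, fun het => hts ?_, not_disjoint_iff.2 ⟨f, hfs, hft⟩⟩
    exact (eq_of_two_pairs hs htA hfe hfs he hft het).symm
  · intro f hf g hg hfg
    refine disjoint_left.2 fun t htf htg => ?_
    simp only [S, mem_erase, mem_filter] at htf htg
    exact htf.1 (eq_of_two_pairs hs htf.2.1 hfg (mem_erase.1 hf).2 (mem_erase.1 hg).2
      htf.2.2 htg.2.2).symm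

theorem drift (A : Finset (Finset V)) :
    0 ≤ ∑ t ∈ tri A, ((if ∀ e ∈ pairs t, codeg A e = 1 then (6 / 5 : ℝ) else 0)
      + (total (A \ pairs t) - total A)) := by
  have hA : ∑ s ∈ tri A, ∑ e ∈ pairs s,
        gain (codeg A e) * ∑ f ∈ (pairs s).erase e, ((codeg A f : ℝ) - 1)
      ≤ ∑ t ∈ tri A, ∑ s ∈ tri A, ∑ e ∈ pairs s,
        if e ∉ pairs t ∧ ¬ Disjoint (pairs s) (pairs t) then gain (codeg A e) else 0 := by
    rw [sum_comm (s := tri A) (t := tri A)]
    refine sum_le_sum fun s hs => ?_
    rw [sum_comm]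
    refine sum_le_sum fun e he => ?_
    rw [← sum_filter, sum_const, nsmul_eq_mul, mul_comm (gain _)]
    exact mul_le_mul_of_nonneg_right (partners_lower hs he) (gain_nonneg (codeg_pos hs he))
  have hB : 0 ≤ ∑ s ∈ tri A, ((∑ e ∈ pairs s,
      gain (codeg A e) * ∑ f ∈ (pairs s).erase e, ((codeg A f : ℝ) - 1))
      - ∑ e ∈ pairs s, pot (codeg A e)
      + (if ∀ e ∈ pairs s, codeg A e = 1 then (6 / 5 : ℝ) else 0)) := by
    refine sum_nonneg fun s hs => ?_
    obtain ⟨a, b, d, hab, had, hbd, he⟩ := card_eq_three.1 (pairs_card hs)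
    have ha := codeg_pos hs (e := a) (by simp [he])
    have hb := codeg_pos hs (e := b) (by simp [he])
    have hd := codeg_pos hs (e := d) (by simp [he])
    have := triangle_drift ha hb hd
    have ea : ({a, b, d} : Finset (Finset V)).erase a = {b, d} := by grind
    have eb : ({a, b, d} : Finset (Finset V)).erase b = {a, d} := by grind
    have ed : ({a, b, d} : Finset (Finset V)).erase d = {a, b} := by grind
    have es : ∀ F : Finset V → ℝ, ∑ e ∈ ({a, b, d} : Finset (Finset V)), F e = F a + F b + F d :=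
      fun F => by simp [hab, had, hbd]; ring
    simp only [he, es, ea, eb, ed, sum_pair hbd, sum_pair had, sum_pair hab, mem_insert,
      mem_singleton, forall_eq_or_imp, forall_eq]
    linarith
  have hC := sum_le_sum fun t (ht : t ∈ tri A) => step_lower ht
  rw [sum_add_distrib, sum_sub_distrib] at hB
  simp only [sum_add_distrib, sum_sub_distrib] at hC ⊢
  linarith

theorem total_le (A : Finset (Finset V)) : total A ≤ procExp 1 (6 / 5) A := by
  induction A using Finset.strongInduction with
  | H A ih =>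
    rw [procExp]
    by_cases h : tri A = ∅
    · rw [if_pos h, one_mul, total]
      refine le_of_eq ?_
      simp [codeg, h, pot]
    · have hT : (0 : ℝ) < ((tri A).card : ℝ) := by
        exact_mod_cast card_pos.2 (nonempty_iff_ne_empty.2 h)
      rw [if_neg h, le_div_iff₀ hT]
      rw [sum_attach (tri A) (fun t => (if ∀ e ∈ pairs t, codeg A e = 1 then (6 / 5 : ℝ) else 0)
        + procExp 1 (6 / 5) (A \ pairs t))]
      refine le_trans ?_ (sum_le_sum fun t ht => add_le_add_right (ih (A \ pairs t) ?_) _)
      · have := drift A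
        simp only [sum_add_distrib, sum_sub_distrib, sum_const, nsmul_eq_mul] at this ⊢
        linarith [mul_comm (total A) ((tri A).card : ℝ)]
      · exact Finset.ssubset_iff_subset_ne.2 ⟨sdiff_subset, fun he => by
          have := card_sdiff_pairs_lt ht; rw [he] at this; omega⟩

theorem procExp_linear (a b : ℝ) (A : Finset (Finset V)) :
    procExp a b A = a * expLeave A + b * expIsolated A := by
  induction A using Finset.strongInduction with
  | H A ih =>
    rw [expLeave, expIsolated, procExp, procExp.eq_def 1 0, procExp.eq_def 0 1]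
    by_cases h : tri A = ∅
    · simp [h]
    · simp only [if_neg h]
      rw [mul_div_assoc', mul_div_assoc', ← add_div, mul_sum, mul_sum, ← sum_add_distrib]
      congr 1
      refine sum_congr rfl fun t _ => ?_
      rw [ih (A \ pairs t.1) (Finset.ssubset_iff_subset_ne.2 ⟨sdiff_subset, fun he => by
        have := card_sdiff_pairs_lt t.2; rw [he] at this; omega⟩), expLeave, expIsolated]
      split_ifs <;> ring

/-- Leave plus isolated removals dominate the sum of `codeg ^ (-1/2)` over the edges. -/
theorem general_lower (A : Finset (Finset V)) :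
    2 / 5 * ∑ e ∈ A, (1 : ℝ) / Real.sqrt (2 * (codeg A e : ℝ) + 1)
      ≤ expLeave A + 6 / 5 * expIsolated A := by
  have h := total_le A
  rw [procExp_linear, one_mul] at h
  refine le_trans ?_ h
  rw [total, mul_sum]
  refine sum_le_sum fun e _ => ?_
  generalize codeg A e = c
  cases c with
  | zero => norm_num [pot]
  | succ j =>
    rw [pot]
    gcongr
    rw [div_le_iff₀ (by positivity)]
    refine (pow_le_pow_iff_left₀ zero_le_one (mul_nonneg (q_pos j).le (Real.sqrt_nonneg _))
      two_ne_zero).1 ?_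
    rw [one_pow, mul_pow, Real.sq_sqrt (by positivity)]
    refine (q_sq j).trans ?_
    have := q_pos j
    gcongr
    omega

theorem complete_lower {n : ℕ} (hn : 2 ≤ n) :
    (n : ℝ) ^ ((3 : ℝ) / 2) / 15 ≤
      expLeave ((univ : Finset (Fin n)).powersetCard 2)
        + 6 / 5 * expIsolated ((univ : Finset (Fin n)).powersetCard 2) := by
  refine le_trans ?_ (general_lower _)
  set A := (univ : Finset (Fin n)).powersetCard 2 with hAdef
  have hc : ∀ e ∈ A, codeg A e ≤ n - 2 := by
    intro e he
    have he2 := (mem_powersetCard.1 he).2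
    have : codeg A e ≤ ((univ \ e).image fun v => insert v e).card := by
      refine card_le_card fun s hs => ?_
      obtain ⟨hs, hes⟩ := mem_filter.1 hs
      obtain ⟨hsub, _⟩ := mem_powersetCard.1 hes
      have h1 : (s \ e).card = 1 := by
        rw [card_sdiff_of_subset hsub, tri_card hs, he2]
      obtain ⟨v, hv⟩ := card_eq_one.1 h1
      refine mem_image.2 ⟨v, ?_, ?_⟩
      · have : v ∈ s \ e := by simp [hv]
        simp [(mem_sdiff.1 this).2]
      · rw [← union_sdiff_of_subset hsub, hv]; grind
    refine this.trans (card_image_le.trans ?_)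
    rw [card_sdiff_of_subset (subset_univ e), card_univ, Fintype.card_fin, he2]
  have hcard : (A.card : ℝ) = (n : ℝ) * ((n : ℝ) - 1) / 2 := by
    rw [hAdef, card_powersetCard, card_univ, Fintype.card_fin, Nat.cast_choose_two]
  have hn' : (2 : ℝ) ≤ n := by exact_mod_cast hn
  have hs : ∀ e ∈ A, (1 : ℝ) / Real.sqrt (2 * (n : ℝ))
      ≤ 1 / Real.sqrt (2 * (codeg A e : ℝ) + 1) := by
    intro e he
    have : codeg A e + 2 ≤ n := by have := hc e he; omega
    have : (codeg A e : ℝ) + 2 ≤ n := by exact_mod_cast this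
    gcongr
    linarith
  have h1 := card_nsmul_le_sum A _ _ hs
  rw [nsmul_eq_mul, hcard] at h1
  refine le_trans ?_ (mul_le_mul_of_nonneg_left h1 (by norm_num))
  have hr : (n : ℝ) ^ ((3 : ℝ) / 2) = (n : ℝ) * Real.sqrt n := by
    rw [show (3 : ℝ) / 2 = 1 + 1 / 2 by norm_num, Real.rpow_add (by linarith), Real.rpow_one,
      ← Real.sqrt_eq_rpow]
  rw [hr, Real.sqrt_mul (by norm_num) (n : ℝ)]
  have h2 : Real.sqrt 2 ≤ 3 / 2 := by
    rw [Real.sqrt_le_left (by norm_num)]; norm_num
  have h3 : (0 : ℝ) < Real.sqrt 2 := by positivity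
  have h4 := Real.mul_self_sqrt (show (0 : ℝ) ≤ n by linarith)
  have h5 : (0 : ℝ) < Real.sqrt n := by positivity
  field_simp
  nlinarith [mul_le_mul_of_nonneg_left h2 h5.le, h4]

end Vale.Agent.P046
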