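import Vale.Agent.P046.Defs

/-!
An exact edge potential for the triangle removal process.
-/

namespace Vale.Agent.P046

open Finset

/-- The product of the ratios 2i/(2i+1), i from 1 to j. -/
noncomputable def q : ℕ → ℝ
  | 0 => 1
  | j + 1 => q j * ((2 * (j : ℝ) + 2) / (2 * (j : ℝ) + 3))

theorem q_pos : ∀ j, 0 < q j
  | 0 => by simp [q]
  | j + 1 => by
    have := q_pos j
    rw [q]; positivity

theorem q_succ (j : ℕ) : q (j + 1) * (2 * (j : ℝ) + 3) = q j * (2 * (j : ℝ) + 2) := by
  rw [q]; field_simp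

theorem q_le_succ (j : ℕ) : q (j + 1) ≤ q j := by
  have h := q_succ j
  have := q_pos j; have := q_pos (j + 1)
  nlinarith

theorem q_sq : ∀ j : ℕ, 1 ≤ q j ^ 2 * (2 * (j : ℝ) + 1)
  | 0 => by simp [q]
  | j + 1 => by
    have h := q_succ j
    have ih := q_sq j
    have h1 : (q (j + 1)) ^ 2 * (2 * (j : ℝ) + 3) ^ 2 = (q j) ^ 2 * (2 * (j : ℝ) + 2) ^ 2 := by
      rw [← mul_pow, h, mul_pow]
    push_cast
    by_contra hc
    have hp : (0 : ℝ) < 2 * (j : ℝ) + 3 := by positivity
    nlinarith [mul_lt_mul_of_pos_left (not_le.1 hc) hp]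

theorem q_le_twothirds : ∀ {j : ℕ}, 1 ≤ j → q j ≤ 2 / 3
  | 0, h => absurd h (by omega)
  | 1, _ => by norm_num [q]
  | j + 2, _ => (q_le_succ _).trans (q_le_twothirds (by omega))

/-- The potential of an edge with codegree `a`. -/
noncomputable def pot : ℕ → ℝ
  | 0 => 1
  | j + 1 => 2 / 5 * q j

/-- The gain when the codegree falls from `a` to `a - 1`. -/
noncomputable def gain (a : ℕ) : ℝ := pot (a - 1) - pot a

theorem gain_one : gain 1 = 3 / 5 := by norm_num [gain, pot, q]

theorem gain_eq (j : ℕ) : gain (j + 2) = 2 / 5 * (q (j + 1) / (2 * (j : ℝ) + 2)) := by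
  have h := q_succ j
  simp only [gain, show j + 2 - 1 = j + 1 by omega, pot]
  field_simp
  linarith

theorem gain_succ (j : ℕ) : gain (j + 2) ≤ gain (j + 1) := by
  cases j with
  | zero => rw [gain_one, gain_eq]; norm_num [q]
  | succ j =>
    rw [gain_eq, gain_eq]
    have h := q_le_succ (j + 1)
    have := q_pos (j + 1 + 1)
    gcongr
    · exact (q_pos _).le
    · push_cast; linarith

theorem gain_anti {a b : ℕ} (ha : 1 ≤ a) (hab : a ≤ b) : gain b ≤ gain a := by
  induction b, hab using Nat.le_induction with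
  | base => exact le_rfl
  | succ b hb ih =>
    obtain ⟨j, rfl⟩ : ∃ j, b = j + 1 := ⟨b - 1, by omega⟩
    exact (gain_succ j).trans ih

theorem gain_nonneg {a : ℕ} (ha : 1 ≤ a) : 0 ≤ gain a := by
  obtain ⟨j, rfl⟩ : ∃ j, a = j + 1 := ⟨a - 1, by omega⟩
  cases j with
  | zero => norm_num [gain_one]
  | succ j => rw [gain_eq]; have := q_pos (j + 1); positivity

theorem pot_sub (c : ℕ) : ∀ k ≤ c, (k : ℝ) * gain c ≤ pot (c - k) - pot c
  | 0, _ => by simp
  | k + 1, hk => by
    have ih := pot_sub c k (by omega)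
    have h := gain_anti (a := c - k) (b := c) (by omega) (by omega)
    have e : gain (c - k) = pot (c - (k + 1)) - pot (c - k) := by
      rw [gain, Nat.sub_add_eq]
    push_cast
    nlinarith

theorem q_div_anti {x y : ℕ} (hxy : x ≤ y) : q (y + 1) / ((y : ℝ) + 1) ≤ q (x + 1) / ((x : ℝ) + 1) := by
  induction y, hxy using Nat.le_induction with
  | base => exact le_rfl
  | succ y hy ih =>
    refine le_trans ?_ ih
    have := q_le_succ (y + 1)
    have := q_pos (y + 1)
    gcongr
    push_cast; linarith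

/-- The contribution of an ordered-pair exchange inside one triangle. -/
noncomputable def pairTerm (a b : ℕ) : ℝ :=
  gain a * ((b : ℝ) - 1) + gain b * ((a : ℝ) - 1) - (pot a + pot b) / 2

theorem pairTerm_comm (a b : ℕ) : pairTerm a b = pairTerm b a := by
  unfold pairTerm; ring

theorem pairTerm_ge_two {a b : ℕ} (ha : 2 ≤ a) (hb : 2 ≤ b) : 0 ≤ pairTerm a b := by
  wlog hab : a ≤ b generalizing a b
  · rw [pairTerm_comm]; exact this hb ha (by omega)
  obtain ⟨x, rfl⟩ : ∃ x, a = x + 2 := ⟨a - 2, by omega⟩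
  obtain ⟨y, rfl⟩ : ∃ y, b = y + 2 := ⟨b - 2, by omega⟩
  have hxy : (x : ℝ) ≤ y := by exact_mod_cast (by omega : x ≤ y)
  have h := q_div_anti (x := x) (y := y) (by omega)
  have e : pairTerm (x + 2) (y + 2) =
      1 / 5 * (((y : ℝ) - x) * (q (x + 1) / ((x : ℝ) + 1) - q (y + 1) / ((y : ℝ) + 1))) := by
    simp only [pairTerm, gain_eq, pot]
    push_cast
    field_simp
    ring
  rw [e]
  exact mul_nonneg (by norm_num) (mul_nonneg (by linarith) (by linarith))

theorem pairTerm_one {b : ℕ} (hb : 2 ≤ b) : 4 / 15 ≤ pairTerm 1 b := by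
  obtain ⟨y, rfl⟩ : ∃ y, b = y + 2 := ⟨b - 2, by omega⟩
  have h := q_le_twothirds (j := y + 1) (by omega)
  have hy : (0 : ℝ) ≤ y := Nat.cast_nonneg y
  simp only [pairTerm, gain_one, pot, show q 0 = 1 from rfl]
  push_cast
  nlinarith

theorem pairTerm_one_one : pairTerm 1 1 = -(2 / 5) := by
  norm_num [pairTerm, pot, q]

/-- The drift contributed by one triangle with edge codegrees `a`, `b`, `d`. -/
theorem triangle_drift {a b d : ℕ} (ha : 1 ≤ a) (hb : 1 ≤ b) (hd : 1 ≤ d) :
    0 ≤ gain a * (((b : ℝ) - 1) + ((d : ℝ) - 1)) + gain b * (((a : ℝ) - 1) + ((d : ℝ) - 1))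
      + gain d * (((a : ℝ) - 1) + ((b : ℝ) - 1)) - (pot a + pot b + pot d)
      + (if a = 1 ∧ b = 1 ∧ d = 1 then (6 / 5 : ℝ) else 0) := by
  have e : gain a * (((b : ℝ) - 1) + ((d : ℝ) - 1)) + gain b * (((a : ℝ) - 1) + ((d : ℝ) - 1))
      + gain d * (((a : ℝ) - 1) + ((b : ℝ) - 1)) - (pot a + pot b + pot d)
      = pairTerm a b + pairTerm a d + pairTerm b d := by
    unfold pairTerm; ring
  rw [e]
  rcases (show a = 1 ∨ 2 ≤ a by omega) with rfl | ha' <;>
    rcases (show b = 1 ∨ 2 ≤ b by omega) with rfl | hb' <;>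
    rcases (show d = 1 ∨ 2 ≤ d by omega) with rfl | hd'
  · norm_num [pairTerm_one_one]
  · have := pairTerm_one hd'
    rw [if_neg (by omega), pairTerm_one_one]; linarith
  · have := pairTerm_one hb'
    rw [if_neg (by omega), pairTerm_one_one, pairTerm_comm b 1]; linarith
  · have := pairTerm_one hb'; have := pairTerm_one hd'; have := pairTerm_ge_two hb' hd'
    rw [if_neg (by omega)]; linarith
  · have := pairTerm_one ha'
    rw [if_neg (by omega), pairTerm_one_one, pairTerm_comm a 1]; linarith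
  · have := pairTerm_one ha'; have := pairTerm_one hd'; have := pairTerm_ge_two ha' hd'
    rw [if_neg (by omega), pairTerm_comm a 1]; linarith
  · have := pairTerm_one ha'; have := pairTerm_one hb'; have := pairTerm_ge_two ha' hb'
    rw [if_neg (by omega), pairTerm_comm a 1, pairTerm_comm b 1]; linarith
  · have := pairTerm_ge_two ha' hb'; have := pairTerm_ge_two ha' hd'
    have := pairTerm_ge_two hb' hd'
    rw [if_neg (by omega)]; linarith

end Vale.Agent.P046
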